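import Vale.Agent.P146.H197.Mast2

/-!
# P146: the upper bound of the relative entropy with a thermal noise term

In the second regime the second moment of the overlap of two copies is at most
`W2 / T ^ 2 + W3 / T`: the second term is the rank one number (thermal noise) and the error of the
amplitude. `kamp_upI` takes the integral over the second regime as one number, `int_reg2` bounds
that integral, `kamp_up4` is the combination.
-/

open MeasureTheory Set Filter Topology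

namespace Vale.Agent.P146.H176

open Vale.Agent.P146.H317 Vale.Agent.P146.H418 Vale.Agent.P146.H197

/-- **The upper bound of the relative entropy**, the second regime as one number. -/
theorem kamp_upI {K A c a w η e T₂ R E1 I2 E0 : ℝ} {r : ℝ → ℝ} {N : ℕ} (hA : 0 ≤ A)
    (hc : 0 < c) (hw : 0 < w) (ha : 0 ≤ a) (hη : 0 ≤ η) (hη4 : η ≤ 1 / 4) (he : 0 ≤ e)
    (hE1 : 0 ≤ E1) (hN : gg η (N + 1) ≤ T₂) (hT1 : T₂ ≤ 1)
    (hR : rho ((1 - η) * c) ((1 + η) * a + e) ((1 + η) * w) 0 ≤ R)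
    (hr : AntitoneOn r (Ioc 0 1)) (hr0 : ∀ T ∈ Ioc (0 : ℝ) 1, 0 ≤ r T)
    (hK : K ≤ A * (∑ l ∈ Finset.range N, (gg η l - gg η (l + 1)) * r (gg η (l + 1)) + E0))
    (h1 : ∀ T ∈ Icc (gg η (N + 1)) T₂, ∃ T' ∈ Icc (T / (1 + η)) T,
      r T' ≤ rho ((1 - η) * c) ((1 + η) * a + e) ((1 + η) * w) T' ^ 2 + E1)
    (h2 : ∫ T in T₂..1, r T ≤ I2) :
    K ≤ A * (J c a w + (7 * η * (w * R + c * R ^ 3) + 3 * (η * a + e) * R ^ 2 + 3 * T₂ * E1 +
      2 * I2 + E0)) := by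
  have h1η : 0 < 1 + η := by linarith
  have hT0 : 0 < gg η (N + 1) := gg_pos hη _
  have hT2 : 0 < T₂ := hT0.trans_le hN
  have hp : 0 < rho ((1 - η) * c) ((1 + η) * a + e) ((1 + η) * w) 0 :=
    rho_pos (mul_pos (by linarith) hc) (mul_pos h1η hw)
  have hR0 : 0 < R := hp.trans_le hR
  refine hK.trans (mul_le_mul_of_nonneg_left ?_ hA)
  have k0 := grid_up hη hr hr0 N
  have k1 := up (r := r) (E := fun _ => E1) hc hw ha hη hη4 he hT0 hN hT1 hR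
    (hr.mono fun u hu => ⟨lt_of_lt_of_le (by positivity) hu.1, hu.2.trans hT1⟩)
    (fun _ _ _ => le_rfl) (fun _ => hE1)
    (fun T hT => h1 T hT)
  have k2 : ∫ _T in (gg η (N + 1) / (1 + η))..T₂, E1 ≤ T₂ * E1 := by
    rw [intervalIntegral.integral_const, smul_eq_mul]
    refine mul_le_mul_of_nonneg_right ?_ hE1
    have : 0 ≤ gg η (N + 1) / (1 + η) := by positivity
    linarith
  have i1 : IntervalIntegrable r volume (gg η (N + 1)) T₂ := ii_anti hr hT0 hN hT1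
  have i2 : IntervalIntegrable r volume T₂ 1 := ii_anti hr hT2 hT1 le_rfl
  have e2 : ∫ T in (gg η (N + 1))..1, r T = (∫ T in (gg η (N + 1))..T₂, r T) +
      ∫ T in T₂..1, r T := (intervalIntegral.integral_add_adjacent_intervals i1 i2).symm
  rw [e2] at k0
  have hI0 : 0 ≤ ∫ T in T₂..1, r T :=
    intervalIntegral.integral_nonneg hT1 fun T hT => hr0 T ⟨hT2.trans_le hT.1, hT.2⟩
  have hI2 : 0 ≤ I2 := hI0.trans h2
  have hJ : J c a w ≤ c * R ^ 3 / 3 + w * R := by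
    refine J_le hc hw (le_trans ?_ hR)
    exact rho_mono (mul_pos (by linarith) hc) (by nlinarith) hw (by nlinarith) (by nlinarith)
  have hJ0 := J_nonneg c a w
  have hwR : 0 ≤ w * R := by positivity
  have hcR : 0 ≤ c * R ^ 3 := by positivity
  have hG1 : 0 ≤ (η * a + e) * R ^ 2 := by positivity
  have hG2 : 0 ≤ T₂ * E1 := by positivity
  set X := w * R + c * R ^ 3 with hX
  have hX0 : 0 ≤ X := by rw [hX]; positivity
  set G := (η * a + e) * R ^ 2 with hG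
  set H := T₂ * E1 with hH
  have hJX : J c a w ≤ X := by
    rw [hX]
    linarith
  have m1 : (1 + η) * ((∫ T in (gg η (N + 1))..T₂, r T) + ∫ T in T₂..1, r T) ≤
      (1 + η) * (J c a w + 4 * η * X + 2 * G + 2 * H + I2) := by
    refine mul_le_mul_of_nonneg_left ?_ (by linarith)
    have e3 : 2 * (η * a + e) * R ^ 2 = 2 * G := by rw [hG]; ring
    rw [e3] at k1
    linarith
  have m2 : (1 + η) * (J c a w + 4 * η * X + 2 * G + 2 * H + I2) ≤
      J c a w + 7 * η * X + 3 * G + 3 * H + 2 * I2 := by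
    have q1 : η * J c a w ≤ η * X := mul_le_mul_of_nonneg_left hJX hη
    have q2 : 0 ≤ η * X := mul_nonneg hη hX0
    have q3 : η * (η * X) ≤ 1 / 4 * (η * X) := mul_le_mul_of_nonneg_right hη4 q2
    have q4 : η * G ≤ 1 / 4 * G := mul_le_mul_of_nonneg_right hη4 hG1
    have q5 : η * H ≤ 1 / 4 * H := mul_le_mul_of_nonneg_right hη4 hG2
    have q6 : η * I2 ≤ 1 / 4 * I2 := mul_le_mul_of_nonneg_right hη4 hI2
    nlinarith
  have e4 : 7 * η * (w * R + c * R ^ 3) = 7 * η * X := by rw [hX]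
  have e5 : 3 * (η * a + e) * R ^ 2 = 3 * G := by rw [hG]; ring
  have e6 : 3 * T₂ * E1 = 3 * H := by rw [hH]; ring
  rw [e5, e6]
  linarith

/-- a function with `r T ≤ A / T ^ 2 + B / T` on `[T₂, T₃]` -/
lemma int_inv_sq {T₂ T₃ W2 W3 : ℝ} {r : ℝ → ℝ} (hT2 : 0 < T₂) (h23 : T₂ ≤ T₃)
    (hi : IntervalIntegrable r volume T₂ T₃)
    (h : ∀ T ∈ Icc T₂ T₃, r T ≤ W2 / T ^ 2 + W3 / T) :
    ∫ T in T₂..T₃, r T ≤ W2 / T₂ - W2 / T₃ + W3 * Real.log (T₃ / T₂) := by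
  have hT3 : 0 < T₃ := hT2.trans_le h23
  have hd : ∀ T ∈ Set.uIcc T₂ T₃,
      HasDerivAt (fun T : ℝ => -(W2 / T) + W3 * Real.log T) (W2 / T ^ 2 + W3 / T) T := by
    intro T hT
    rw [uIcc_of_le h23] at hT
    have hT' : T ≠ 0 := (hT2.trans_le hT.1).ne'
    have h4 := (((hasDerivAt_inv hT').const_mul W2).neg).add ((Real.hasDerivAt_log hT').const_mul W3)
    refine (h4.congr_deriv ?_).congr_of_eventuallyEq (Eventually.of_forall fun s => ?_)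
    · field_simp
    · simp [div_eq_mul_inv]
  have hc2 : ContinuousOn (fun T : ℝ => W2 / T ^ 2 + W3 / T) (Set.uIcc T₂ T₃) := by
    rw [uIcc_of_le h23]
    refine ContinuousOn.add (continuousOn_const.div (continuousOn_pow 2) fun T hT => ?_)
      (continuousOn_const.div continuousOn_id fun T hT => ?_)
    · exact pow_ne_zero 2 (hT2.trans_le hT.1).ne'
    · exact (hT2.trans_le hT.1).ne'
  have hci : IntervalIntegrable (fun T : ℝ => W2 / T ^ 2 + W3 / T) volume T₂ T₃ :=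
    hc2.intervalIntegrable
  have e1 : ∫ T in T₂..T₃, (W2 / T ^ 2 + W3 / T) =
      W2 / T₂ - W2 / T₃ + W3 * Real.log (T₃ / T₂) := by
    rw [intervalIntegral.integral_eq_sub_of_hasDerivAt hd hci,
      Real.log_div hT3.ne' hT2.ne']
    ring
  rw [← e1]
  exact intervalIntegral.integral_mono_on h23 hi hci fun T hT => h T hT

/-- the second regime, at one time of every window -/
theorem int_reg2 {η T₂ T₃ W2 W3 : ℝ} {r : ℝ → ℝ} (hη : 0 ≤ η) (hη4 : η ≤ 1 / 4)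
    (hT2 : 0 < T₂) (h23 : T₂ ≤ T₃) (h3 : T₃ ≤ 1) (hW2 : 0 ≤ W2) (hW3 : 0 ≤ W3)
    (hr : AntitoneOn r (Ioc 0 1)) (hr0 : ∀ T ∈ Ioc (0 : ℝ) 1, 0 ≤ r T)
    (h2 : ∀ T ∈ Icc T₂ T₃, ∃ T' ∈ Icc (T / (1 + η)) T, r T' ≤ W2 / T' ^ 2 + W3 / T') :
    ∫ T in T₂..1, r T ≤
      2 * (W2 / T₂ + W2 / T₃ ^ 2) + 2 * (W3 * (Real.log (T₃ / T₂) + 1 / T₃)) := by
  have h1η : 0 < 1 + η := by linarith
  have hT3 : 0 < T₃ := hT2.trans_le h23
  have h2' : ∀ T ∈ Icc T₂ T₃, r T ≤ 2 * W2 / T ^ 2 + 2 * W3 / T := by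
    intro T hT
    have hTp : 0 < T := hT2.trans_le hT.1
    obtain ⟨T', hT', h⟩ := h2 T hT
    have hq : 0 < T / (1 + η) := by positivity
    have hT'p : 0 < T' := hq.trans_le hT'.1
    have hT1 : T ≤ 1 := hT.2.trans h3
    have e1 : r T ≤ r T' := hr ⟨hT'p, hT'.2.trans hT1⟩ ⟨hTp, hT1⟩ hT'.2
    have e2 : T ≤ (1 + η) * T' := by
      have := hT'.1
      rw [div_le_iff₀ h1η] at this
      linarith
    have e3 : T ^ 2 ≤ ((1 + η) * T') ^ 2 := pow_le_pow_left₀ hTp.le e2 2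
    have e4 : (1 + η) ^ 2 ≤ 2 := by nlinarith
    refine (e1.trans h).trans (add_le_add ?_ ?_)
    · rw [div_le_div_iff₀ (by positivity) (by positivity)]
      have e5 : 0 ≤ W2 * T' ^ 2 := by positivity
      calc W2 * T ^ 2 ≤ W2 * ((1 + η) * T') ^ 2 := mul_le_mul_of_nonneg_left e3 hW2
        _ = (1 + η) ^ 2 * (W2 * T' ^ 2) := by ring
        _ ≤ 2 * (W2 * T' ^ 2) := mul_le_mul_of_nonneg_right e4 e5
        _ = 2 * W2 * T' ^ 2 := by ring
    · rw [div_le_div_iff₀ hT'p hTp]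
      have e5 : 0 ≤ W3 * T' := by positivity
      calc W3 * T ≤ W3 * ((1 + η) * T') := mul_le_mul_of_nonneg_left e2 hW3
        _ = (1 + η) * (W3 * T') := by ring
        _ ≤ 2 * (W3 * T') := mul_le_mul_of_nonneg_right (by linarith) e5
        _ = 2 * W3 * T' := by ring
  have i2 : IntervalIntegrable r volume T₂ T₃ := ii_anti hr hT2 h23 h3
  have i3 : IntervalIntegrable r volume T₃ 1 := ii_anti hr hT3 h3 le_rfl
  rw [← intervalIntegral.integral_add_adjacent_intervals i2 i3]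
  have k3 := int_inv_sq hT2 h23 i2 h2'
  have k4 : ∫ T in T₃..1, r T ≤ 2 * W2 / T₃ ^ 2 + 2 * W3 / T₃ := by
    have h5 := int_le_left hr hT3 h3 le_rfl
    have h6 := h2' T₃ ⟨h23, le_rfl⟩
    have h7 := hr0 T₃ ⟨hT3, h3⟩
    have h8 : (1 - T₃) * r T₃ ≤ 1 * r T₃ := mul_le_mul_of_nonneg_right (by linarith) h7
    linarith
  have k5 : 0 ≤ 2 * W2 / T₃ := by positivity
  have k6 : 2 * (W2 / T₂ + W2 / T₃ ^ 2) + 2 * (W3 * (Real.log (T₃ / T₂) + 1 / T₃)) =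
      2 * W2 / T₂ + 2 * W3 * Real.log (T₃ / T₂) + (2 * W2 / T₃ ^ 2 + 2 * W3 / T₃) := by
    field_simp
    ring
  rw [k6]
  linarith

/-- `H197.kamp_up3` with the thermal noise term `W3 / T` in the second regime. -/
theorem kamp_up4 {K A c a w η e T₂ T₃ R E1 W2 W3 E0 : ℝ} {r : ℝ → ℝ} {N : ℕ} (hA : 0 ≤ A)
    (hc : 0 < c) (hw : 0 < w) (ha : 0 ≤ a) (hη : 0 ≤ η) (hη4 : η ≤ 1 / 4) (he : 0 ≤ e)
    (hE1 : 0 ≤ E1) (hW2 : 0 ≤ W2) (hW3 : 0 ≤ W3)
    (hN : gg η (N + 1) ≤ T₂) (h23 : T₂ ≤ T₃) (h3 : T₃ ≤ 1)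
    (hR : rho ((1 - η) * c) ((1 + η) * a + e) ((1 + η) * w) 0 ≤ R)
    (hr : AntitoneOn r (Ioc 0 1)) (hr0 : ∀ T ∈ Ioc (0 : ℝ) 1, 0 ≤ r T)
    (hK : K ≤ A * (∑ l ∈ Finset.range N, (gg η l - gg η (l + 1)) * r (gg η (l + 1)) + E0))
    (h1 : ∀ T ∈ Icc (gg η (N + 1)) T₂, ∃ T' ∈ Icc (T / (1 + η)) T,
      r T' ≤ rho ((1 - η) * c) ((1 + η) * a + e) ((1 + η) * w) T' ^ 2 + E1)
    (h2 : ∀ T ∈ Icc T₂ T₃, ∃ T' ∈ Icc (T / (1 + η)) T, r T' ≤ W2 / T' ^ 2 + W3 / T') :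
    K ≤ A * (J c a w + (7 * η * (w * R + c * R ^ 3) + 3 * (η * a + e) * R ^ 2 + 3 * T₂ * E1 +
      4 * (W2 / T₂ + W2 / T₃ ^ 2) + 4 * (W3 * (Real.log (T₃ / T₂) + 1 / T₃)) + E0)) := by
  have hT2 : 0 < T₂ := (gg_pos hη (N + 1)).trans_le hN
  have k := kamp_upI hA hc hw ha hη hη4 he hE1 hN (h23.trans h3) hR hr hr0 hK h1
    (int_reg2 hη hη4 hT2 h23 h3 hW2 hW3 hr hr0 h2)
  refine k.trans (le_of_eq ?_)
  ring

end Vale.Agent.P146.H176
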