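import Vale.Agent.P146.H443.Path

/-!
# P146: the path of a constrained minimiser, for a small field at the first level

`path_F` is `H443.path_C` with two more properties of the path `q`: it is at least `c y` from the
level `1` on, and `1 - ∑ (m (l+1) - m l) q l` (the slope of the value in the variance of a field at
the first level, up to the factor `1 / 2`) is at most `1 / b + C y ^ 2`.
-/

set_option autoImplicit false

open Filter Topology Set

namespace Vale.Agent.P146.H176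

open Vale.Agent.P157.Par
open Vale.Agent.P146.Gap
open Vale.Agent.P146.Pw2
open Vale.Agent.P146.Lb
open Vale.Agent.P146.Sh
open Vale.Agent.P367.Cl
open Vale.Agent.P146.H443

/-- while the path vanishes, the second moment is `vv ^ 2` -/
theorem mb_vv {b : ℝ} {n : ℕ} {r : ℕ → ℝ} (hr : BPath b n r) {l : ℕ} (hl : l < n)
    (hrl : r l = 0) : Mb n (gm n) r l 0 = vv n r ^ 2 := by
  obtain ⟨C4, hC4, hM1⟩ := M1b_bd b
  have hm := gm_exponents n
  have hp := hr.2.1
  have hM : ∀ l < n, ∀ t ∈ Icc 0 (r (l + 1) - r l),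
      |Mb n (gm n) r l t - vv n r ^ 2| ≤ C4 * (r l + t) ^ (0 + 1) := by
    refine m1b_track hp hr.1 (g := fun l t => Mb n (gm n) r l t - vv n r ^ 2)
      (by linarith only [hC4]) 0
      (fun l hl => (Mb_cont hm hp hl).sub continuousOn_const) ?_ (fun l hl => ?_)
      (fun l hl t ht => ⟨M1b n (gm n) r l t, (Mb_deriv hm hp hl ht).sub_const _, ?_⟩)
    · have hn : 0 < n := by omega
      change Mb n (gm n) r 0 0 - vv n r ^ 2 = 0
      rw [Mb_zero hm hp hn, Ml, ee_zero hr.1]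
      simp only [vv, sub_self]
    · rw [Mb_last hm hp (by omega), Mb_zero hm hp hl]
    · rw [pow_zero, mul_one]
      exact hM1 n (gm n) r hm hr l hl t (Ioo_subset_Icc_self ht)
  have h1 := hM l hl 0 ⟨le_rfl, by linarith only [hp.2 l hl]⟩
  rw [hrl, zero_add, zero_add, pow_one, mul_zero] at h1
  have h2 := abs_eq_zero.1 (le_antisymm h1 (abs_nonneg _))
  linarith only [h2]

/-- the slope of a minimiser is the second derivative at the origin -/
theorem chi_eq {b : ℝ} (hb : 0 < b) {n d : ℕ} {r : ℕ → ℝ} (h : IsMinD b n d r) :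
    1 - ∑ l ∈ Finset.range (n + 1), (gm n (l + 1) - gm n l) * (r l / b ^ 2) = vv n r := by
  have hm := gm_exponents n
  have h1 := second_deriv_eq hm h.1.2.1 h.1.1
  have e : Fl n (gm n) r 0 = cascade (gm n) r n lc := by
    simp only [Fl, Nat.zero_add, Nat.sub_zero]
  rw [vv, e, h1]
  congr 1
  refine Finset.sum_congr rfl fun l hl => ?_
  have h2 := statD hb h l (Nat.lt_succ_iff.1 (Finset.mem_range.1 hl))
  have h3 : r l / b ^ 2 = spR n (gm n) r l := by
    rw [div_eq_iff (by positivity)]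
    linarith only [h2]
  rw [h3]

/-- **The slope of the constrained minimisers**: `|χ - 1 / b| ≤ C x ^ 2`. -/
theorem chi_law {b : ℝ} (hb : 1 < b) : ∃ c C : ℝ, 0 < c ∧ 1 ≤ C ∧ ∀ (n d : ℕ) (r : ℕ → ℝ),
    1 ≤ d → d ≤ n → IsMinD b n d r → gm n d ≤ c → C ≤ gm n d ^ 40 * (n + 1) →
      |(1 - ∑ l ∈ Finset.range (n + 1), (gm n (l + 1) - gm n l) * (r l / b ^ 2)) - 1 / b| ≤
        C * gm n d ^ 2 := by
  obtain ⟨c₁, C₁, hc₁, hC₁, hA⟩ := lawA hb
  obtain ⟨C₂, hC₂, hM⟩ := m1e b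
  obtain ⟨cv, Kv, hcv, hKv, hvk⟩ := vk_bd b
  have hb0 : 0 < b := by linarith
  -- the bound of the derivative is `B x`
  obtain ⟨B, hB⟩ : ∃ B : ℝ, B = Kv ^ 2 * C₁ + 2 + C₂ * C₁ := ⟨_, rfl⟩
  have hB0 : 0 < B := by rw [hB]; positivity
  refine ⟨min c₁ (1 / C₁), max C₁ (b * (B * C₁ + 1)), by positivity,
    hC₁.trans (le_max_left _ _), fun n d r hd1 hdn hmin hx hC => ?_⟩
  obtain ⟨x, hxdef⟩ : ∃ x, x = gm n d := ⟨_, rfl⟩
  rw [← hxdef] at hx hC ⊢
  have hx0 : 0 < x := by rw [hxdef]; exact grid_gm_pos hd1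
  have hxc : x ≤ c₁ := hx.trans (min_le_left _ _)
  have hxC : C₁ * x ≤ 1 := by
    have h1 : x ≤ 1 / C₁ := hx.trans (min_le_right _ _)
    rw [le_div_iff₀ (by linarith only [hC₁])] at h1
    linarith only [h1]
  have hx1 : x ≤ 1 := by
    have : 0 ≤ (C₁ - 1) * x := mul_nonneg (by linarith only [hC₁]) hx0.le
    linarith only [this, hxC]
  have hr := hmin.1
  have hm := gm_exponents n
  obtain ⟨hA1, hA2, hA3, hA4⟩ := hA n d r hd1 hdn hmin (by rw [← hxdef]; exact hxc)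
    (by rw [← hxdef]; exact (le_max_left _ _).trans hC)
  rw [← hxdef] at hA1 hA2 hA3
  obtain ⟨v1, v2, v3, v4⟩ := hvk n r hr
  have hdn' : d < n := by
    rcases hdn.lt_or_eq with h | h
    · exact h
    · exfalso
      have h' : r d = r n := by rw [h]
      rw [h'] at hA2
      have : 0 < C₁ * x := by positivity
      have h'' : 2 * C₁ * x = 2 * (C₁ * x) := by ring
      linarith only [this, h'', hA3, hA2]
  obtain ⟨l, rfl⟩ : ∃ l, d = l + 1 := ⟨d - 1, by omega⟩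
  have hln : l < n := by omega
  have hrl : r l = 0 := hmin.2.1 l (Nat.lt_succ_self l)
  obtain ⟨R, hRdef⟩ : ∃ R, R = r (l + 1) := ⟨_, rfl⟩
  have eR : r (l + 1) - r l = R := by rw [hrl, sub_zero, hRdef]
  rw [← hRdef] at hA1 hA2
  have hR0 : 0 < R := (by positivity : 0 < c₁ * x).trans_le hA1
  have hX0 : 0 < C₁ * x := by positivity
  have hxCx : x ≤ C₁ * x := le_mul_of_one_le_left hx0.le hC₁
  have hgc : ContinuousOn (Mb n (gm n) r l) (Icc 0 R) := by
    have := Mb_cont hm hr.2.1 hln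
    rwa [eR] at this
  have h2 : ∀ t ∈ Ioo 0 R, HasDerivAt (Mb n (gm n) r l) (M1b n (gm n) r l t) t := fun t ht =>
    Mb_deriv hm hr.2.1 hln (by rw [eR]; exact ht)
  have h3 : ∀ t ∈ Ioo 0 R, |M1b n (gm n) r l t| ≤ B * x := fun t ht => by
    have e1 := hM n (C₁ * x) r hr hX0 hxC l hln (by rw [← hxdef]; exact hxCx) t
      (by rw [eR]; exact ⟨ht.1.le, ht.2.le⟩) (by
        rw [hrl, zero_add]
        linarith only [ht.2, hA2])
    rw [hrl, zero_add, ← hxdef] at e1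
    have e2 : √(C₁ * x) ≤ 1 := by
      rw [Real.sqrt_le_one]
      exact hxC
    have e3 : C₂ * (C₁ * x * √(C₁ * x)) ≤ C₂ * (C₁ * x * 1) := by
      have : 0 ≤ C₂ := by linarith only [hC₂]
      gcongr
    have e4 : |kk n r ^ 2 * t - 2 * x * vv n r ^ 3| ≤ Kv ^ 2 * (C₁ * x) + 2 * x := by
      have f1 : 0 ≤ kk n r ^ 2 * t := mul_nonneg (sq_nonneg _) ht.1.le
      have f2 : kk n r ^ 2 * t ≤ Kv ^ 2 * (C₁ * x) := by
        have g1 : kk n r ^ 2 ≤ Kv ^ 2 := pow_le_pow_left₀ (by linarith only [hcv, v3]) v4 2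
        exact mul_le_mul g1 (by linarith only [ht.2, hA2]) ht.1.le (by positivity)
      have f3 : 0 ≤ 2 * x * vv n r ^ 3 := by
        have : 0 ≤ vv n r := by linarith only [hcv, v1]
        positivity
      have f4 : 2 * x * vv n r ^ 3 ≤ 2 * x := by
        have g1 : vv n r ^ 3 ≤ 1 := pow_le_one₀ (by linarith only [hcv, v1]) v2
        calc 2 * x * vv n r ^ 3 ≤ 2 * x * 1 := by gcongr
          _ = _ := mul_one _
      rw [abs_le]
      constructor <;> linarith only [f1, f2, f3, f4]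
    have e5 : |M1b n (gm n) r l t| ≤ |M1b n (gm n) r l t - (kk n r ^ 2 * t - 2 * x * vv n r ^ 3)| +
        |kk n r ^ 2 * t - 2 * x * vv n r ^ 3| := by
      have := abs_add_le (M1b n (gm n) r l t - (kk n r ^ 2 * t - 2 * x * vv n r ^ 3))
        (kk n r ^ 2 * t - 2 * x * vv n r ^ 3)
      rwa [sub_add_cancel] at this
    have e6 : B * x = Kv ^ 2 * (C₁ * x) + 2 * x + C₂ * (C₁ * x * 1) := by rw [hB]; ring
    rw [e6]
    linarith only [e1, e3, e4, e5]
  -- the mean value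
  have h4 : |Mb n (gm n) r l R - Mb n (gm n) r l 0| ≤ B * x * R := by
    obtain ⟨t, ht, h5⟩ := exists_hasDerivAt_eq_slope (Mb n (gm n) r l) (M1b n (gm n) r l) hR0 hgc h2
    have h6 : Mb n (gm n) r l R - Mb n (gm n) r l 0 = M1b n (gm n) r l t * R := by
      rw [h5, sub_zero]
      field_simp
    rw [h6, abs_mul, abs_of_pos hR0]
    exact mul_le_mul_of_nonneg_right (h3 t ht) hR0.le
  have hgR : |Mb n (gm n) r l R - 1 / b ^ 2| ≤ x ^ 8 := by
    have e1 := Mb_last hm hr.2.1 hln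
    rw [eR] at e1
    rw [e1, ← Mb_zero hm hr.2.1 hdn', hxdef]
    refine hA4 (l + 1) le_rfl hdn' 0 ⟨le_rfl, ?_⟩
    have := len_mono hr (Nat.le_succ (l + 1)) hdn'
    linarith only [this]
  rw [mb_vv hr hln hrl] at h4
  have h5 : |vv n r ^ 2 - 1 / b ^ 2| ≤ (B * C₁ + 1) * x ^ 2 := by
    have e1 : x ^ 8 ≤ x ^ 2 := pow_le_pow_of_le_one hx0.le hx1 (by norm_num)
    have e2 : B * x * R ≤ B * x * (C₁ * x) := by gcongr
    have e3 : |vv n r ^ 2 - 1 / b ^ 2| ≤ |Mb n (gm n) r l R - vv n r ^ 2| +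
        |Mb n (gm n) r l R - 1 / b ^ 2| := by
      have := abs_sub_le (vv n r ^ 2) (Mb n (gm n) r l R) (1 / b ^ 2)
      rwa [abs_sub_comm (vv n r ^ 2) (Mb n (gm n) r l R)] at this
    have e4 : B * x * (C₁ * x) = B * C₁ * x ^ 2 := by ring
    linarith only [h4, hgR, e1, e2, e3, e4]
  rw [chi_eq hb0 hmin]
  have hv0 : 0 < vv n r := by linarith only [hcv, v1]
  have h6 : vv n r - 1 / b = (vv n r ^ 2 - 1 / b ^ 2) / (vv n r + 1 / b) := by
    have : vv n r + 1 / b ≠ 0 := by positivity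
    field_simp
    ring
  rw [h6, abs_div, abs_of_pos (show 0 < vv n r + 1 / b by positivity),
    div_le_iff₀ (by positivity)]
  have h7 : (B * C₁ + 1) * x ^ 2 ≤ max C₁ (b * (B * C₁ + 1)) * x ^ 2 * (1 / b) := by
    have e1 : b * (B * C₁ + 1) ≤ max C₁ (b * (B * C₁ + 1)) := le_max_right _ _
    calc (B * C₁ + 1) * x ^ 2 = b * (B * C₁ + 1) * x ^ 2 * (1 / b) := by field_simp
      _ ≤ _ := by gcongr
  have h8 : max C₁ (b * (B * C₁ + 1)) * x ^ 2 * (1 / b) ≤
      max C₁ (b * (B * C₁ + 1)) * x ^ 2 * (vv n r + 1 / b) := by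
    have e1 : 0 ≤ max C₁ (b * (B * C₁ + 1)) * x ^ 2 := by positivity
    exact mul_le_mul_of_nonneg_left (by linarith only [hv0]) e1
  linarith only [h5, h7, h8]

/-- the sum of the shifted path -/
theorem shift_chi {b : ℝ} {e K : ℕ} {m q r : ℕ → ℝ} (h0 : ∀ l < e + 1, r l = 0)
    (hm : ∀ j, 1 ≤ j → m j = gm (e + K) (e + j)) (hq : ∀ j, q j = r (e + j) / b ^ 2) :
    ∑ l ∈ Finset.range (K + 1), (m (l + 1) - m l) * q l =
      ∑ l ∈ Finset.range (e + K + 1), (gm (e + K) (l + 1) - gm (e + K) l) * (r l / b ^ 2) := by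
  have h1 : e + K + 1 = e + (K + 1) := by ring
  rw [h1, Finset.sum_range_add _ e (K + 1)]
  have h2 : ∑ l ∈ Finset.range e, (gm (e + K) (l + 1) - gm (e + K) l) * (r l / b ^ 2) = 0 := by
    refine Finset.sum_eq_zero fun l hl => ?_
    have := Finset.mem_range.1 hl
    rw [h0 l (by omega), zero_div, mul_zero]
  rw [h2, zero_add]
  refine Finset.sum_congr rfl fun l hl => ?_
  rw [hq l]
  by_cases hl0 : l = 0
  · subst hl0
    rw [h0 (e + 0) (by omega), zero_div, mul_zero, mul_zero]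
  · rw [hm l (by omega), hm (l + 1) (by omega)]
    rfl

/-- **The path with a jump and its slope.**  `path_C` with constants which do not depend on `ε`,
with `c₀ y ≤ q l` from the level `1` on, and with the bound of the slope. -/
theorem path_F {b : ℝ} (hb : 1 < b) {A : ℝ}
    (hA : Tendsto (fun x => (Vx b x - P0 b) / x ^ 5) (𝓝[>] 0) (𝓝 A)) :
    ∃ c₀ C₀ : ℝ, 0 < c₀ ∧ 1 ≤ C₀ ∧ ∀ ε : ℝ, 0 < ε → ∃ c : ℝ, 0 < c ∧ ∀ y : ℝ, 0 < y → y ≤ c →
      ∃ (K : ℕ) (m q : ℕ → ℝ) (L : ℕ), Exponents K m ∧ Path K q ∧ q 0 = 0 ∧ q K ≤ 1 ∧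
        y ≤ m 1 ∧ m 1 ≤ 1.01 * y ∧ 1 ≤ L ∧ L ≤ K ∧ 1.4 * y ≤ m L ∧ m L ≤ 2.02 * y ∧
        (∀ l < L, q l ≤ C₀ * y) ∧ (∀ l, 1 ≤ l → l ≤ K → c₀ * y ≤ q l) ∧
        1 - ∑ l ∈ Finset.range (K + 1), (m (l + 1) - m l) * q l ≤ 1 / b + C₀ * y ^ 2 ∧
        SKpar b K m q ≤ P0 b + (A + ε) * y ^ 5 := by
  have hb0 : 0 < b := by linarith
  obtain ⟨ca, Ca, hca, hCa, hlA⟩ := lawA hb
  obtain ⟨cc, Cc, hcc, hCc, hlC⟩ := lawC hb
  obtain ⟨cx, Cx, hcx, hCx, hlX⟩ := chi_law hb
  refine ⟨ca / b ^ 2, 2 * (Ca + 1) + 4 * Cx, by positivity, by linarith only [hCa, hCx],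
    fun ε hε => ?_⟩
  -- the scale of the value
  have hev : ∀ᶠ x in 𝓝[>] (0 : ℝ), |(Vx b x - P0 b) / x ^ 5 - A| ≤ ε / 2 := by
    filter_upwards [(Metric.tendsto_nhds.1 hA) (ε / 2) (by positivity)] with x hx
    rw [Real.dist_eq] at hx
    exact hx.le
  obtain ⟨y₁, hy₁, hyV⟩ : ∃ y₁ : ℝ, 0 < y₁ ∧ ∀ y, 0 < y → y < y₁ →
      |(Vx b y - P0 b) / y ^ 5 - A| ≤ ε / 2 := by
    rw [eventually_nhdsWithin_iff, Metric.eventually_nhds_iff] at hev
    obtain ⟨δ, hδ, h⟩ := hev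
    refine ⟨δ, hδ, fun y hy0 hy => h ?_ hy0⟩
    rw [Real.dist_eq, sub_zero, abs_of_pos hy0]
    exact hy
  -- the constants
  obtain ⟨c, hc⟩ : ∃ c : ℝ, c = min (min (y₁ / 2) (1 / 4)) (min (min (ca / 2) (cc / 2))
    (min (cx / 2) ((1 / (20 * Cc)) ^ 2))) := ⟨_, rfl⟩
  have hCc0 : 0 < Cc := by linarith only [hCc]
  have hc0 : 0 < c := by rw [hc]; positivity
  have hcy : c ≤ y₁ / 2 := by
    rw [hc]; exact (min_le_left _ _).trans (min_le_left _ _)
  have hc4 : c ≤ 1 / 4 := by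
    rw [hc]; exact (min_le_left _ _).trans (min_le_right _ _)
  have hcca : c ≤ ca / 2 := by
    rw [hc]; exact (min_le_right _ _).trans ((min_le_left _ _).trans (min_le_left _ _))
  have hccc : c ≤ cc / 2 := by
    rw [hc]; exact (min_le_right _ _).trans ((min_le_left _ _).trans (min_le_right _ _))
  have hccx : c ≤ cx / 2 := by
    rw [hc]; exact (min_le_right _ _).trans ((min_le_right _ _).trans (min_le_left _ _))
  have hcs : c ≤ (1 / (20 * Cc)) ^ 2 := by
    rw [hc]; exact (min_le_right _ _).trans ((min_le_right _ _).trans (min_le_right _ _))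
  refine ⟨c, hc0, fun y hy hyc => ?_⟩
  have hy1 : y < 1 := by linarith only [hyc, hc4]
  have hy5 : 0 < y ^ 5 := by positivity
  -- the grid
  have t := shlim_td hy
  have e1 : ∀ᶠ n : ℕ in atTop, gm n (shlimd y n) < 1.01 * y :=
    t.eventually (gt_mem_nhds (by linarith only [hy]))
  have e2 : ∀ᶠ n : ℕ in atTop, 2 * b ^ 2 / ((n : ℝ) + 1) ≤ ε / 2 * y ^ 5 := by
    have h1 : Tendsto (fun n : ℕ => 2 * b ^ 2 / ((n : ℝ) + 1)) atTop (𝓝 0) :=
      tendsto_const_nhds.div_atTop shlim_n1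
    exact (h1.eventually (gt_mem_nhds (by positivity))).mono fun _ h => h.le
  obtain ⟨n, h1, h2, h3, h4⟩ := (e1.and (e2.and ((shlim_le hy1).and
    (shlim_big hy (max (max Ca Cc) Cx) 40)))).exists
  have g1 := shlim_ge y n
  have g2 := shlim_one hy n
  have g3 := shlim_lt hy n
  generalize shlimd y n = d at *
  obtain ⟨r, hr⟩ := exists_minD (n := n) (d := d) hb0 h3
  have hgc : gm n d ≤ 2 * c := by linarith only [h1, hyc, hy]
  obtain ⟨a1, a2, -, -⟩ := hlA n d r g2 h3 hr (by linarith only [hgc, hcca])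
    (((le_max_left _ _).trans (le_max_left _ _)).trans h4)
  obtain ⟨L, l1, l2, l3, l4, l5⟩ := hlC n d r g2 h3 hr (by linarith only [hgc, hccc])
    (((le_max_right _ _).trans (le_max_left _ _)).trans h4)
  have hx := (abs_le.1 (hlX n d r g2 h3 hr (by linarith only [hgc, hccx])
    ((le_max_right _ _).trans h4))).2
  obtain ⟨e, rfl⟩ : ∃ e, d = e + 1 := ⟨d - 1, by omega⟩
  obtain ⟨K, rfl⟩ : ∃ K, n = e + K := ⟨n - e, by omega⟩
  obtain ⟨m, q, f1, f2, f3, f4, f5, f6, f7⟩ := shift_path hb0 hr.1 hr.2.1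
  have hg0 : 0 < gm (e + K) (e + 1) := hy.trans_le g1
  have hg1 : gm (e + K) (e + 1) ≤ 1 := by linarith only [h1, hy1, hyc, hc4, hy]
  refine ⟨K, m, q, L - e, f1, f2, f3, f4, ?_, ?_, by omega, by omega, ?_, ?_, fun l hl => ?_,
    fun l hl1 hl2 => ?_, ?_, ?_⟩
  · rw [f5 1 le_rfl]
    exact g1
  · rw [f5 1 le_rfl]
    exact h1.le
  · rw [f5 (L - e) (by omega), show e + (L - e) = L by omega]
    refine le_trans ?_ l5
    have hs : √(gm (e + K) (e + 1)) ≤ 1 / (10 * Cc) := by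
      rw [Real.sqrt_le_left (by positivity)]
      have h5 : 1.01 * y ≤ 2 * (1 / (20 * Cc)) ^ 2 := by
        have h6 : 0 < (1 / (20 * Cc)) ^ 2 := by positivity
        linarith only [hyc, hcs, h6, hy]
      have h7 : (1 / (10 * Cc)) ^ 2 = 4 * (1 / (20 * Cc)) ^ 2 := by
        field_simp
        ring
      have h6 : 0 < (1 / (20 * Cc)) ^ 2 := by positivity
      rw [h7]
      linarith only [h5, h1, h6]
    have h8 : Cc * (gm (e + K) (e + 1) * √(gm (e + K) (e + 1))) ≤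
        1 / 10 * gm (e + K) (e + 1) := by
      calc Cc * (gm (e + K) (e + 1) * √(gm (e + K) (e + 1))) =
            Cc * gm (e + K) (e + 1) * √(gm (e + K) (e + 1)) := by ring
        _ ≤ Cc * gm (e + K) (e + 1) * (1 / (10 * Cc)) :=
            mul_le_mul_of_nonneg_left hs (by positivity)
        _ = 1 / 10 * gm (e + K) (e + 1) := by field_simp
    linarith only [h8, g1]
  · rw [f5 (L - e) (by omega), show e + (L - e) = L by omega]
    have h5 := dn_gm (n := e + K) l2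
    linarith only [h5, h1]
  · rw [f6, div_le_iff₀ (by positivity)]
    have h5 : r (e + l) ≤ r (L - 1) := len_mono hr.1 (by omega) (by omega)
    have h6 : gm (e + K) (e + 1) ^ 4 ≤ gm (e + K) (e + 1) := by
      calc gm (e + K) (e + 1) ^ 4 ≤ gm (e + K) (e + 1) ^ 1 :=
            pow_le_pow_of_le_one hg0.le hg1 (by norm_num)
        _ = _ := pow_one _
    have h7 : r (e + l) ≤ (Ca + 1) * gm (e + K) (e + 1) := by
      linarith only [h5, l4, a2, h6]
    have h8 : (Ca + 1) * gm (e + K) (e + 1) ≤ (Ca + 1) * (2 * y) :=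
      mul_le_mul_of_nonneg_left (by linarith only [h1, hy]) (by linarith only [hCa])
    have h10 : (Ca + 1) * (2 * y) ≤ (2 * (Ca + 1) + 4 * Cx) * y := by
      have : 0 ≤ Cx * y := mul_nonneg (by linarith only [hCx]) hy.le
      linarith only [this]
    have h9 : (2 * (Ca + 1) + 4 * Cx) * y ≤ (2 * (Ca + 1) + 4 * Cx) * y * b ^ 2 := by
      refine le_mul_of_one_le_right ?_ ?_
      · have : 0 < Ca + 1 := by linarith only [hCa]
        have : 0 < Cx := by linarith only [hCx]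
        positivity
      · exact one_le_pow₀ hb.le
    linarith only [h7, h8, h9, h10]
  · rw [f6, div_mul_eq_mul_div]
    refine div_le_div_of_nonneg_right ?_ (by positivity)
    have h5 : r (e + 1) ≤ r (e + l) := len_mono hr.1 (by omega) (by omega)
    have h6 : ca * y ≤ ca * gm (e + K) (e + 1) := mul_le_mul_of_nonneg_left g1 hca.le
    linarith only [h5, h6, a1]
  · rw [shift_chi hr.2.1 f5 f6]
    have h5 : Cx * gm (e + K) (e + 1) ^ 2 ≤ Cx * (4 * y ^ 2) := by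
      have h6 : gm (e + K) (e + 1) ^ 2 ≤ (2 * y) ^ 2 :=
        pow_le_pow_left₀ hg0.le (by linarith only [h1, hy]) 2
      have h7 : (2 * y) ^ 2 = 4 * y ^ 2 := by ring
      rw [h7] at h6
      exact mul_le_mul_of_nonneg_left h6 (by linarith only [hCx])
    have h8 : 0 ≤ (Ca + 1) * y ^ 2 := by
      have : 0 < Ca + 1 := by linarith only [hCa]
      positivity
    have h9 : (2 * (Ca + 1) + 4 * Cx) * y ^ 2 = 2 * ((Ca + 1) * y ^ 2) + Cx * (4 * y ^ 2) := by
      ring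
    linarith only [hx, h5, h8, h9]
  · rw [f7]
    have h5 := vx_ge hb g2 h3 hy hy1.le g3 hr
    have h6 := (abs_le.1 (hyV y hy (by linarith only [hyc, hcy, hy]))).2
    have h7 : (Vx b y - P0 b) / y ^ 5 ≤ A + ε / 2 := by linarith only [h6]
    rw [div_le_iff₀ hy5] at h7
    have h8 : (A + ε) * y ^ 5 = (A + ε / 2) * y ^ 5 + ε / 2 * y ^ 5 := by ring
    rw [h8]
    linarith only [h5, h7, h2]

end Vale.Agent.P146.H176
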