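import Vale.Agent.P146.H122.S3b
import Vale.Agent.P146.H463.ApU

/-!
# P146: the numbers of the ensemble `U`, eventually in the size and the unit

Port of `H412.U.gnU_ev1`, `H463.Ap.gnL_ev`, `H463.Ap.apU_ev` to `EV`.
-/

open MeasureTheory ProbabilityTheory Filter Topology Set

namespace Vale.Agent.P146.S3

section gn

open Vale.Agent.P157.Lv hiding Dep
open Vale.Agent.P146.H425 Vale.Agent.P146.H332 Vale.Agent.P146.H646
open Vale.Agent.P146.H196 Vale.Agent.P146.H246 Vale.Agent.P146.H347 Vale.Agent.P146.H325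
  Vale.Agent.P146.H816 Vale.Agent.P146.H475 Vale.Agent.P146.H9 Vale.Agent.P146.H281.U
  Vale.Agent.P146.H698.Br Vale.Agent.P146.H412 Vale.Agent.P146.H412.G Vale.Agent.P146.H529
  Vale.Agent.P146.H463
open Vale.Agent.P146.H9.U hiding lvlU
open Vale.Agent.P146.H412.U hiding gnU_ev1

/-- **The gain in the ensemble U**, for all level systems. -/
theorem gnU_ev1 {b e s0 s1 : ℝ} (hb : 0 < b) (he : 0 < e) (hs0 : 0 ≤ s0) (hs : s0 < s1) :
    EV fun n q => ∀ (vp s lam η y V a : ℝ), H516.Par1 b (s0 * q) (e * q) n vp s lam η y V a →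
      0 < vp →
      ∀ (LB' LF' : Type) [Fintype LB'] [DecidableEq LB'] [Fintype LF'] [DecidableEq LF']
      (cB' : LB' → ℝ) (cF' : LF' → ℝ) (κ : LF' → Bool), ∑ l, cB' l ^ 2 = 1 →
      (∀ k, ∑ l with κ l = k, cF' l ^ 2 = VFb vp s k) →
      gain (muA (Xs n) lam η (cc n b s a)) 1 y
        (SU b cB' cF' fun l => αb η (κ l) : Co n LB' LF' → ℝ × Xs n → ℝ) ≤
        (n : ℝ) ^ (1 + s1 * q) * y ^ 6 := by
  filter_upwards [gn_ev1 hb he hs0 hs, ev_ge 1] with ⟨n, q⟩ g1 g2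
  dsimp only at g1 g2 ⊢
  intro vp s lam η y V a h hv LB' LF' _ _ _ _ cB' cF' κ hB hF
  have hn0 : (0 : ℝ) < n := by exact_mod_cast g2
  have hy0 : 0 < y := lt_of_lt_of_le (Real.rpow_pos_of_pos hn0 _) h.y0
  have hl : 0 < lam := by linarith [h.lam1]
  rw [gain_U (cB := H418.cb 0) (cF := H418.cf vp 0) hl h.η0.le hv h.s0'
    (H418.sum_cb le_rfl zero_le_one) (H418.sum_cf h.vp0 le_rfl zero_le_one) hB hF hy0]
  exact g1 vp s lam η y V a h 0 ⟨le_rfl, zero_le_one⟩ 0 ⟨le_rfl, zero_le_one⟩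

end gn

section ap

open Vale.Agent.P157.Lv hiding Dep
open Vale.Agent.P146.H646 Vale.Agent.P146.H196 Vale.Agent.P146.H246
  Vale.Agent.P146.H475 Vale.Agent.P146.H325 Vale.Agent.P146.H281.U
open Vale.Agent.P146.H347 (Co Kset Xs bd fd gd g1)
open Vale.Agent.P146.H412 (gs prs Bst disj_Bst tB tB_nonneg gain gain_lm Cp)
open Vale.Agent.P146.H412.G (eG cG CCg Qg sR Bds tail_ccg mom_ccg tail_Qg mom_Qg CCg_nonneg)
open Vale.Agent.P146.H698 (nuL_fin nuL_ne amU_L)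
open Vale.Agent.P146.H698.Br (αb VFb ub φu emb_unit mp_unit tr_lzm bridge_unit gr)
open Vale.Agent.P146.H418 Vale.Agent.P146.H320 Vale.Agent.P146.H615
open Vale.Agent.P146.H470 (le_of_log log_c)
open Vale.Agent.P146.H529 (cc SG)
open Vale.Agent.P146.H463
open Vale.Agent.P146.H463.Ap hiding gnL_ev apU_ev

set_option linter.unusedSectionVars false

/-- **The gain.** -/
theorem gnL_ev {b e s0 s1 : ℝ} (hb : 0 < b) (he : 0 < e) (hs0 : 0 ≤ s0) (hs : s0 < s1) :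
    EV fun n q => ∀ (vp s lam η y V a : ℝ), H516.Par1 b (s0 * q) (e * q) n vp s lam η y V a →
      0 < vp →
      gnL ⟨n, b, vp, s, lam, η, cc n b s a, y⟩ ≤ (n : ℝ) ^ (1 + s1 * q) * y ^ 6 := by
  filter_upwards [gnU_ev1 hb he hs0 hs, ev_ge 1] with ⟨n, q⟩ g1 g2
  dsimp only at g1 g2 ⊢
  intro vp s lam η y V a h hv
  have hn0 : (0 : ℝ) < n := by exact_mod_cast g2
  have hy0 : 0 < y := lt_of_lt_of_le (Real.rpow_pos_of_pos hn0 _) h.y0
  have hl : 0 < lam := by linarith [h.lam1]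
  rw [gnL_eq (L := ⟨n, b, vp, s, lam, η, cc n b s a, y⟩) hl h.η0.le hy0]
  exact g1 vp s lam η y V a h hv Unit Bool (fun _ => 1) (fun k => √(VFb vp s k)) id (by simp)
    fun k => sum_root h.vp0 k

/-- **The a-priori numbers of the ensemble `U` on the window.** -/
theorem apU_ev {b₁ A b : ℝ} (D : ℝ) (hb : 0 < b) (hA : 1 ≤ A) (hb₁ : 0 < b₁) :
    EV fun n q => ∀ y V al s lam η : ℝ, KW (1 / 6) b₁ q A b n y V al s lam η →
      NW (1 / 6) b₁ q A b n y V al s lam η ∧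
      gnL (lawOf n b y V al s lam η) ≤ (n : ℝ) ^ (1 + q) * y ^ 6 ∧
      ∀ (LB LF : Type) [Fintype LB] [DecidableEq LB] [Fintype LF] [DecidableEq LF]
        (κ : LF → Bool) (cB : LB → ℝ) (cF : LF → ℝ) (BL : Finset LB), ∑ l, cB l ^ 2 = 1 →
        (∀ k, ∑ l with κ l = k, cF l ^ 2 = VFb (V - s ^ 2) s k) →
        stk n (lawOf n b y V al s lam η).nuL b cB cF
          (fun l => alL (lawOf n b y V al s lam η) (κ l)) η y () ≤ (n : ℝ) ^ (-D) ∧
        ∀ T, 0 < T → T ≤ 1 → ∑ l ∈ BL, cB l ^ 2 = 1 - T → ∀ (FL : Finset LF)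
          (S1 S : Finset (Fin n)),
          ApK q D (lawOf n b y V al s lam η) T κ cB cF (Kset S1 BL FL) S ∧
          eG (muL (lawOf n b y V al s lam η)) (enL (lawOf n b y V al s lam η) cB cF κ) y
            (Q4g (muL (lawOf n b y V al s lam η)) (enL (lawOf n b y V al s lam η) cB cF κ) y
              (Kset S BL FL) (sR Prod.snd) S) ≤ (n : ℝ) ^ 4 * Uq q n y T ^ 4 := by
  filter_upwards [nw_ev (b₁ := b₁) (A := A) (b := b) hb hA hb₁,
    gnL_ev (b := b) (e := 999) (s0 := 1 / 2) (s1 := 1) hb (by norm_num) (by norm_num)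
      (by norm_num),
    tail_ap (b := b) (D := D) one_pos hb,
    ev_log (one_pos) (Real.log (4 * (Cp 1 + 1) * (Cp 2 + 1) / b ^ 2)),
    ev_rpow (one_pos) (64 * 3 / b ^ 2),
    ev_logpow (show (0 : ℝ) < 6 * 999 by norm_num) (1 + |D|), ev_ge 1, ev_q0]
    with ⟨n, q⟩ h1 h2 h4 h5 g3 g4 g5 hq
  dsimp only at h1 h2 h4 h5 g3 g4 g5 hq ⊢
  rw [show (1 : ℝ) / 2 * q = q / 2 by ring, one_mul] at h2
  rw [one_mul] at h4 h5
  rw [show (1 : ℝ) * q = 2 * q - q by ring] at g3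
  rw [show (6 : ℝ) * 999 * q = 6 * (999 * q) by ring] at g4
  intro y V al s lam η hkw
  have hw := h1 y V al s lam η hkw
  obtain ⟨k1, k2, k3, k4, k5, k6, k7, k8⟩ := hw.bd
  have hn := hw.env.n0
  have hn1 : (1 : ℝ) ≤ n := by exact_mod_cast g5
  have hy := hw.env.y0
  have hV := hw.env.V0
  have hpar := hw.par
  have hs0 := hkw.s0
  have hvp : 0 < V - s ^ 2 := by linarith
  have hg := h2 (V - s ^ 2) s lam η y V al hpar hvp
  refine ⟨hw, hg, fun LB LF _ _ _ _ κ cB cF BL hB hF => ?_⟩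
  have hadm : Adm (lawOf n b y V al s lam η) := hw.adm.1
  refine ⟨?_, fun T hT hT1 hBL FL S1 S => ?_⟩
  · refine (stk_eq (L := lawOf n b y V al s lam η) hadm hs0 hB hF).trans_le ?_
    refine h4 Bool Bool (H418.cb 0) (H418.cf (V - s ^ 2) 0) lam s η y V al ?_ ?_
      (by linarith) hkw.s0 k6 hkw.η0 (by linarith) hkw.ll hy (by linarith) hkw.sg
    · exact sum_cb le_rfl zero_le_one
    · rw [sum_cf (by linarith) le_rfl zero_le_one]
      ring
  · have hyb : y ^ 2 * b ^ 2 ≤ 4 := by nlinarith [sq_nonneg (y * b)]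
    have hnq : 4 * (Cp 1 + 1) * (Cp 2 + 1) / b ^ 2 ≤ (n : ℝ) ^ q := by
      have hCp : ∀ p, 0 < Cp p := fun p => by
        unfold Cp
        positivity
      have hc1 := hCp 1
      have hc2 := hCp 2
      refine le_of_log (by positivity) (by positivity) ?_
      rw [Real.log_rpow hn]
      exact h5
    have hGe : (n : ℝ) ^ (6 * (999 * q)) ≤ (n : ℝ) ^ (1 + q) * y ^ 6 :=
      H412.U.G_ge (e := 999 * q) (s1 := q) hq.le g5 k8
    have hG1 : 1 ≤ (n : ℝ) ^ (1 + q) * y ^ 6 :=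
      (Real.one_le_rpow hn1 (by positivity)).trans hGe
    obtain ⟨s1, s2⟩ := ap_scal (U := Uq q n y T) hb hn1 hy hT hnq g3 (g4.trans hGe) (Uq_sq hT)
    refine ⟨apK_num (L := lawOf n b y V al s lam η) hadm hs0 hy hB hF hyb hg hG1 hT hT1 hBL s1
      s2 FL S1 S, (q4_sys (L := lawOf n b y V al s lam η) hadm hs0 hy hB hF hyb hg hG1 hT hBL FL
      S).trans (mul_le_mul_of_nonneg_left ?_ (by positivity))⟩
    have e4 : Uq q n y T ^ 4 = (Uq q n y T ^ 2) ^ 2 := by ring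
    rw [e4]
    refine pow_le_pow_left₀ (by positivity) (le_trans ?_ s1) 2
    have c1 : Cp 1 = 3 := by norm_num [Cp, Nat.factorial]
    have c2 : Cp 2 = 14 := by norm_num [Cp, Nat.factorial]
    rw [c1, c2]
    show 43 * ((n : ℝ) ^ (1 + q) * y ^ 6) / (y ^ 2 * b ^ 2 * T * n) ≤ _
    rw [← mul_div_assoc]
    refine div_le_div_of_nonneg_right ?_ (by positivity)
    have : 0 ≤ (n : ℝ) ^ (1 + q) * y ^ 6 := by positivity
    nlinarith

end ap

end Vale.Agent.P146.S3
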