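import Vale.Agent.P146.H122.S3Defs
import Vale.Agent.P146.H119.S3UpU
import Vale.Agent.P146.H119.S3N7
import Vale.Agent.P146.H119.S3Par

/-!
# P146: the upper half of the formula for the second choice, in the size and the unit

Port of `H463.kampUp_two`, `H463.n7F_of`, `H463.kampUp_B` to `EV`.
-/

open MeasureTheory ProbabilityTheory Filter Set

namespace Vale.Agent.P146.S3

open Vale.Agent.P146.H418 Vale.Agent.P146.H529 Vale.Agent.P146.H178 Vale.Agent.P146.H122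
open Vale.Agent.P146.H463 (sB_sq)

/-- **`KampUp` for the second choice**: `s² = n^(-80q) V`. -/
theorem kampUpS_two {β b₁ : ℝ} (hβ : 0 < β) (hb₁ : 0 < b₁)
    (h1 : ∀ A : ℝ, 1 ≤ A → RowUp1S b₁ A β) (h2 : ∀ A : ℝ, 1 ≤ A → RowUp2S b₁ A β)
    (h7 : ∀ A : ℝ, 1 ≤ A → N7S b₁ A β) :
    KampUpS β b₁ fun q => Kam β (sB q) (lA q) (hA q) := by
  intro A hA
  filter_upwards [kw_two (b := β) (b₁ := b₁) (a0 := 1 / 6) le_rfl hA,
    kup_kwU (a0 := 1 / 6) (b₁ := b₁) hβ le_rfl hb₁ hA, h1 A hA, h2 A hA, h7 A hA,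
    ev_ge 1] with ⟨n, q⟩ k1 k2 k3 k4 k5 hn
  dsimp only at k1 k2 k3 k4 k5 hn ⊢
  intro y hy hyu V hVl hVu a hal hau a0' hsg haa hap
  have hn1 : (1 : ℝ) ≤ n := by exact_mod_cast hn
  have hn0 : (0 : ℝ) < n := by linarith
  have hkw := k1 y V a0' hy hyu hVl hVu hsg hap
  have hwa : WA q A n y a0' a := ⟨hal, hau, haa⟩
  have hs2 : s2F q n V ^ 2 = (n : ℝ) ^ (-(80 * q)) * V := sB_sq q n y hkw.V0.le
  have hy0 := hkw.y0
  have ha : 0 < a := by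
    have h : 0 < (n : ℝ) ^ (-(11 * q)) * y ^ 2 := by positivity
    exact pos_of_mul_pos_right (h.trans_le hal) (by linarith)
  have h := k2 y V a0' _ _ _ a hkw ha hau (k3 _ _ _ _ _ _ _ hkw hwa)
    (k4 _ _ _ _ _ _ _ hkw hwa hs2) (k5 _ _ _ _ _ _ _ hkw hwa hs2)
  rw [Kam_lawOf]
  have e1 : -(24 * q + 11 * q + q) = -(36 * q) := by ring
  rw [e1]
  exact h

theorem n7S_of {b₁ A b : ℝ} (hb : 0 < b) (hA : 1 ≤ A) (hb₁ : 0 < b₁) (h : NeFinS b₁ A b) :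
    N7S b₁ A b := by
  unfold NeFinS at h
  unfold N7S
  filter_upwards [n7_fin (a0 := 1 / 6) hb hA le_rfl hb₁ h] with ⟨n, q⟩ k
  dsimp only at k ⊢
  intro y V al s lam η a hK _ hs T hT
  refine k y V al s lam η hK ?_ T hT.1 hT.2
  rw [hs]
  have hV := hK.V0
  have : 0 ≤ (n : ℝ) ^ (-(80 * q)) * V := by positivity
  nlinarith

/-- **`KampUp` for the second choice**, from the first regime, the second regime and the near end
with hidden sites. -/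
theorem kampUpS_B {β b₁ : ℝ} (hβ : 0 < β) (hb₁ : 0 < b₁)
    (h1 : ∀ A : ℝ, 1 ≤ A → RowUp1S b₁ A β) (h2 : ∀ A : ℝ, 1 ≤ A → RowUp2S b₁ A β)
    (h7 : ∀ A : ℝ, 1 ≤ A → NeFinS b₁ A β) :
    KampUpS β b₁ fun q => Kam β (sB q) (lA q) (hA q) :=
  kampUpS_two hβ hb₁ h1 h2 fun A hA => n7S_of hβ hA hb₁ (h7 A hA)

end Vale.Agent.P146.S3
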